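import Crest.Agent.X262.Coh.Defs
import Crest.Agent.X277.BD.Vol2

/-!
# Row 262, COH (helper45): first formal consequences

* `push_spec`, `eq_push`, `push_proj`, `push_comp`, `push_congr`, `push_id`, `itg_push`;
* `mem_dg`, `mem_typ`, `push_dg`, `push_neg`, `push_typ`, `cj_push`;
* `top_eq`, `itg_pb_deg` (degree formula), `push_one_deg`, `push_pb_bim`, `pb_inj`.
-/

set_option autoImplicit false
set_option linter.style.haveILetI false

noncomputable section

namespace Crest.Agent.X262.Coh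

open Crest.Agent.X277 Crest.Agent.X277.Lef Crest.Agent.X277.AN.G1 Crest.Agent.X277.BD
  Crest.Agent.X277.BD.Br

theorem SV.va (X : SV) : VA X.h := by
  refine va_mxf ⟨fun f => ?_⟩
  have h1 : ∀ a ∈ chart ℂ X.P.y 0, a ∈ qf ℂ X.P.y := fun a ha =>
    (Algebra.adjoin_le (S := (qf ℂ X.P.y).toSubalgebra) (by
      rintro _ ⟨j, rfl⟩
      exact div_mem_qf _ _ _)) ha
  obtain ⟨a, ha, c, hc, -, rfl⟩ := X.P.frac f
  exact isAlgebraic_algebraMap (⟨_, div_mem (h1 a ha) (h1 c hc)⟩ : qf ℂ X.P.y)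

/-- the degree -/
def SV.dgr (X : SV) : ℤ := bnum (List.replicate X.dim X.h)

theorem SV.dgr_pos (X : SV) : 0 < X.dgr :=
  bnum_pos (by simp) (all_rp ⟨X.va.nef, X.va.big⟩ _)

theorem SV.dgr_ne (X : SV) : (X.dgr : ℂ) ≠ 0 := by exact_mod_cast X.dgr_pos.ne'

theorem Bim.dmn {X Y : SV} {μ : Hom X Y} (h : Bim μ) : Dmn μ := h.imp fun _ h => h.1

theorem Dmn.dim_le {X Y : SV} {μ : Hom X Y} (h : Dmn μ) : Y.dim ≤ X.dim :=
  h.elim fun α _ => BD.dim_le α

theorem deg_of_surj {F E : Type} [Field F] [Field E] [Algebra ℂ F] [Algebra ℂ E] {α : F →ₐ[ℂ] E}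
    (h : Function.Surjective α) : deg α = 1 := by
  letI := α.toRingHom.toAlgebra
  exact finrank_eq_one_iff'.2 ⟨1, one_ne_zero, fun w => (h w).imp fun c hc => by
    rw [Algebra.smul_def, mul_one]; exact hc⟩

theorem Bim.dim_eq {X Y : SV} {μ : Hom X Y} (h : Bim μ) : X.dim = Y.dim := by
  obtain ⟨α, -, h⟩ := h
  exact (deg_pos_iff α).1 (deg_of_surj h ▸ one_pos)

namespace Th

variable {C : Th} {X Y Z : SV}

theorem prg_apply (a b : C.H X) : C.prg X a b = C.itg X (a * b) := rfl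

section PD

variable (hP : C.PD)
include hP

theorem PD.fin (X : SV) : FiniteDimensional ℂ (C.H X) := (hP X).1

theorem PD.ext {a b : C.H X} (h : ∀ y, C.itg X (a * y) = C.itg X (b * y)) : a = b :=
  sub_eq_zero.1 ((hP X).2 _ fun y => by rw [sub_mul, map_sub, h, sub_self])

theorem PD.prg_inj (X : SV) : Function.Injective (C.prg X) := fun _ _ h =>
  hP.ext fun y => LinearMap.congr_fun h y

theorem PD.prg_surj (X : SV) : Function.Surjective (C.prg X) := by
  haveI := hP.fin X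
  exact (LinearMap.injective_iff_surjective_of_finrank_eq_finrank
    (Subspace.dual_finrank_eq).symm).1 (hP.prg_inj X)

theorem PD.exists_rep (φ : C.H X →ₗ[ℂ] ℂ) : ∃ a, ∀ y, C.itg X (a * y) = φ y :=
  (hP.prg_surj X φ).imp fun _ h y => LinearMap.congr_fun h y

/-- the defining property of the push-forward -/
theorem PD.push_spec (μ : Hom X Y) (a : C.H X) (y : C.H Y) :
    C.itg Y (C.push μ a * y) = C.itg X (a * C.pb μ y) := by
  obtain ⟨b, hb⟩ := hP.prg_surj Y ((C.pb μ).toLinearMap.dualMap (C.prg X a))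
  have h1 : C.push μ a = b := by
    simp only [push, LinearMap.comp_apply]
    rw [← hb]
    exact LinearMap.leftInverse_apply_of_inj (LinearMap.ker_eq_bot.2 (hP.prg_inj Y)) b
  rw [h1]
  exact LinearMap.congr_fun hb y

theorem PD.push_spec' (μ : Hom X Y) (a : C.H X) (y : C.H Y) :
    C.itg Y (y * C.push μ a) = C.itg X (C.pb μ y * a) := by
  rw [mul_comm, hP.push_spec, mul_comm]

theorem PD.eq_push {μ : Hom X Y} {a : C.H X} {b : C.H Y}
    (h : ∀ y, C.itg Y (b * y) = C.itg X (a * C.pb μ y)) : b = C.push μ a :=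
  hP.ext fun y => by rw [h, hP.push_spec]

theorem PD.itg_push (μ : Hom X Y) (a : C.H X) : C.itg Y (C.push μ a) = C.itg X a := by
  simpa using hP.push_spec μ a 1

/-- projection formula -/
theorem PD.push_proj (μ : Hom X Y) (a : C.H X) (y : C.H Y) :
    C.push μ (a * C.pb μ y) = C.push μ a * y :=
  (hP.eq_push fun z => by rw [mul_assoc, hP.push_spec, map_mul (C.pb μ), mul_assoc]).symm

theorem PD.push_proj' (μ : Hom X Y) (a : C.H X) (y : C.H Y) :
    C.push μ (C.pb μ y * a) = y * C.push μ a := by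
  rw [mul_comm, hP.push_proj, mul_comm]

theorem PD.push_pb (μ : Hom X Y) (y : C.H Y) : C.push μ (C.pb μ y) = C.push μ 1 * y := by
  rw [← hP.push_proj, one_mul]

/-- the image of the push-forward is the orthogonal of the kernel of the pull-back -/
theorem PD.mem_of_perp {W : Submodule ℂ (C.H X)} {a : C.H X}
    (h : ∀ y, (∀ w ∈ W, C.itg X (w * y) = 0) → C.itg X (a * y) = 0) : a ∈ W := by
  by_contra ha
  obtain ⟨φ, h1, h2⟩ := Submodule.exists_dual_map_eq_bot_of_notMem ha inferInstance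
  obtain ⟨y, hy⟩ := hP.exists_rep φ
  refine h1 ?_
  rw [← hy, mul_comm]
  refine h y fun w hw => ?_
  rw [mul_comm, hy]
  exact (Submodule.mem_bot ℂ).1 (h2 ▸ Submodule.mem_map_of_mem hw)

theorem PD.mem_range_push {μ : Hom X Y} {b : C.H Y}
    (h : ∀ y, C.pb μ y = 0 → C.itg Y (b * y) = 0) : ∃ a, C.push μ a = b :=
  hP.mem_of_perp (W := LinearMap.range (C.push μ)) fun y hy => h y <|
    (hP X).2 _ fun a => by rw [← hP.push_spec', mul_comm]; exact hy _ ⟨a, rfl⟩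

theorem PD.mem_range_pb {μ : Hom X Y} {b : C.H X}
    (h : ∀ a, C.push μ a = 0 → C.itg X (b * a) = 0) : ∃ y, C.pb μ y = b :=
  hP.mem_of_perp (W := LinearMap.range (C.pb μ).toLinearMap) fun a ha => h a <|
    (hP Y).2 _ fun y => by rw [hP.push_spec, mul_comm]; exact ha _ ⟨y, rfl⟩

theorem PD.mem_iSup_push {ι : Type*} {G : ι → SV} {v : ∀ i, Hom (G i) Y} {b : C.H Y}
    (h : ∀ y, (∀ i, C.pb (v i) y = 0) → C.itg Y (b * y) = 0) :
    b ∈ ⨆ i, LinearMap.range (C.push (v i)) :=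
  hP.mem_of_perp fun y hy => h y fun i => (hP (G i)).2 _ fun a => by
    rw [← hP.push_spec', mul_comm]
    exact hy _ (Submodule.mem_iSup_of_mem i ⟨a, rfl⟩)

end PD

section MAN

variable (hM : C.MAN)
include hM

theorem MAN.pb_eq {μ ν : Hom X Y} (h : ∀ x, μ.map x = ν.map x) (a : C.H Y) :
    C.pb μ a = C.pb ν a := by rw [hM.pb_congr μ ν (funext h)]

/-- a commutative triangle -/
theorem MAN.pb_tri {μ : Hom Y Z} {ν : Hom X Y} {τ : Hom X Z} (h : ∀ x, μ.map (ν.map x) = τ.map x)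
    (a : C.H Z) : C.pb ν (C.pb μ a) = C.pb τ a := by
  rw [← hM.pb_comp]
  exact hM.pb_eq (fun x => by rw [Mor.comp_map, h]) a

/-- a commutative square -/
theorem MAN.pb_sq {W : SV} {μ : Hom Y Z} {ν : Hom X Y} {μ' : Hom W Z} {ν' : Hom X W}
    (h : ∀ x, μ.map (ν.map x) = μ'.map (ν'.map x)) (a : C.H Z) :
    C.pb ν (C.pb μ a) = C.pb ν' (C.pb μ' a) := by
  rw [← hM.pb_comp, ← hM.pb_comp]
  exact hM.pb_eq (fun x => by rw [Mor.comp_map, Mor.comp_map, h]) a

theorem MAN.push_congr {μ ν : Hom X Y} (h : ∀ x, μ.map x = ν.map x) : C.push μ = C.push ν := by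
  unfold push
  rw [hM.pb_congr μ ν (funext h)]

theorem MAN.dg_pow {a : C.H X} {k : ℕ} (ha : a ∈ C.dg X k) (m : ℕ) : a ^ m ∈ C.dg X (m * k) := by
  induction m with
  | zero => simpa using hM.dg_one X
  | succ m ih => rw [pow_succ, Nat.succ_mul]; exact hM.dg_mul X ih ha

theorem MAN.dg_prod {l : List (C.H X)} (h : ∀ a ∈ l, a ∈ C.dg X 1) : l.prod ∈ C.dg X l.length := by
  induction l with
  | nil => simpa using hM.dg_one X
  | cons a l ih =>
    rw [List.prod_cons, List.length_cons, add_comm]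
    exact hM.dg_mul X (h a List.mem_cons_self) (ih fun b hb => h b (List.mem_cons_of_mem _ hb))

theorem MAN.alg_mem (X : SV) (c : ℂ) : algebraMap ℂ (C.H X) c ∈ C.dg X 0 := by
  rw [Algebra.algebraMap_eq_smul_one]
  exact Submodule.smul_mem _ _ (hM.dg_one X)

theorem MAN.hc_dg (X : SV) : C.hc X ∈ C.dg X 1 := hM.c1_dg X _ oP_mem

theorem MAN.hc_pow (X : SV) (m : ℕ) : C.hc X ^ m ∈ C.dg X m := by
  simpa using hM.dg_pow (hM.hc_dg X) m

theorem MAN.iSup_dg (X : SV) : ⨆ k, C.dg X k = ⊤ := (hM.dg_int X).submodule_iSup_eq_top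

/-- induction over homogeneous classes -/
theorem MAN.ind {p : C.H X → Prop} (h0 : p 0) (h1 : ∀ k, ∀ a ∈ C.dg X k, p a)
    (h2 : ∀ a b, p a → p b → p (a + b)) (a : C.H X) : p a :=
  Submodule.iSup_induction (C.dg X) (motive := p) (hM.iSup_dg X ▸ Submodule.mem_top) h1 h0 h2

theorem MAN.c1_zero (X : SV) : C.c1 X 0 = 0 := by
  rw [← pr_one]
  exact hM.c1_pr X 1

/-- the first Chern class as a homomorphism -/
def MAN.c1h (X : SV) : X.On →+ C.H X :=
  AddMonoidHom.mk' (fun a => C.c1 X a) fun a b => hM.c1_add X _ a.2 _ b.2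

theorem MAN.c1_neg {a : BD ℂ X.F} (ha : a ∈ X.On) : C.c1 X (-a) = -C.c1 X a :=
  map_neg (hM.c1h X) ⟨a, ha⟩

theorem MAN.c1_sub {a b : BD ℂ X.F} (ha : a ∈ X.On) (hb : b ∈ X.On) :
    C.c1 X (a - b) = C.c1 X a - C.c1 X b := map_sub (hM.c1h X) ⟨a, ha⟩ ⟨b, hb⟩

theorem MAN.c1_nsmul {a : BD ℂ X.F} (ha : a ∈ X.On) (m : ℕ) : C.c1 X (m • a) = m • C.c1 X a :=
  map_nsmul (hM.c1h X) m ⟨a, ha⟩

theorem MAN.c1_zsmul {a : BD ℂ X.F} (ha : a ∈ X.On) (m : ℤ) : C.c1 X (m • a) = m • C.c1 X a :=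
  map_zsmul (hM.c1h X) m ⟨a, ha⟩

theorem MAN.c1_sum {ι : Type*} (s : Finset ι) {a : ι → BD ℂ X.F} (ha : ∀ i ∈ s, a i ∈ X.On) :
    C.c1 X (∑ i ∈ s, a i) = ∑ i ∈ s, C.c1 X (a i) := by
  classical
  induction s using Finset.induction_on with
  | empty => simpa using hM.c1_zero X
  | insert i s hi ih =>
    rw [Finset.sum_insert hi, Finset.sum_insert hi, hM.c1_add X _ (ha i (by simp)) _
      (sum_mem fun j hj => ha j (by simp [hj])), ih fun j hj => ha j (by simp [hj])]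

theorem MAN.c1_lin {a b : BD ℂ X.F} (h : Lin a b) (hb : b ∈ X.On) : C.c1 X a = C.c1 X b := by
  obtain ⟨f, -, rfl⟩ := h
  rw [hM.c1_add X _ hb _ (pr_mem f), hM.c1_pr, add_zero]

/-- naturality for dominant morphisms -/
theorem MAN.c1_dmn {μ : Hom X Y} {α : Y.F →ₐ[ℂ] X.F} (hμ : μ.p = Plc.ofHom α) {a : BD ℂ Y.F}
    (ha : a ∈ Y.On) : C.pb μ (C.c1 Y a) = C.c1 X (BD.pb α a) :=
  hM.c1_pb μ a ha _ ⟨1, fun x g hg => by
    rw [hμ, div_one]
    exact hg.pb hμ⟩

theorem MAN.itg_c1 (X : SV) {ι : Type*} (l : List ι) {a : ι → BD ℂ X.F} (h : ∀ i ∈ l, a i ∈ X.On) :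
    C.itg X (l.map fun i => C.c1 X (a i)).prod = (bnum (l.map a) : ℤ) := by
  rw [← hM.c1_num X (l.map a) (by simpa using h), List.map_map]
  rfl

theorem MAN.itg_hc (X : SV) : C.itg X (C.hc X ^ X.dim) = X.dgr := by
  rw [SV.dgr, ← hM.c1_num X _ fun a ha => List.eq_of_mem_replicate ha ▸ oP_mem, List.map_replicate,
    List.prod_replicate]

end MAN

section Orth

variable (hP : C.PD)
include hP

/-- a graded piece is the orthogonal of the pieces which are not dual to it -/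
theorem PD.mem_of_orth {ι : Type*} {A : ι → Submodule ℂ (C.H X)} (ht : ⨆ i, A i = ⊤)
    {R : ι → ι → Prop} (ho : ∀ i j, ¬ R i j → ∀ a ∈ A i, ∀ b ∈ A j, C.itg X (a * b) = 0) {j : ι}
    (hu : ∀ i k, R j k → R i k → i = j) {z : C.H X}
    (hz : ∀ k, ¬ R j k → ∀ y ∈ A k, C.itg X (z * y) = 0) : z ∈ A j := by
  have h1 : z ∈ A j ⊔ ⨆ (i) (_ : i ≠ j), A i := by
    rw [← iSup_split_single, ht]
    trivial
  obtain ⟨a, ha, b, hb, rfl⟩ := Submodule.mem_sup.1 h1
  suffices h : b = 0 by rwa [h, add_zero]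
  refine (hP X).2 _ fun y => ?_
  refine Submodule.iSup_induction A (motive := fun y => C.itg X (b * y) = 0)
    (ht ▸ Submodule.mem_top (x := y)) (fun k y hy => ?_) (by simp)
    fun x y hx hy => by rw [mul_add, map_add, hx, hy, add_zero]
  by_cases hR : R j k
  · refine Submodule.iSup_induction _ (motive := fun b => C.itg X (b * y) = 0) hb
      (fun i b hb => ?_) (by simp) fun x y hx hy => by rw [add_mul, map_add, hx, hy, add_zero]
    by_cases hi : i = j
    · rw [hi] at hb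
      simp only [ne_eq, not_true_eq_false, iSup_false, Submodule.mem_bot] at hb
      simp [hb]
    · rw [iSup_pos hi] at hb
      exact ho i k (fun h => hi (hu i k hR h)) b hb y hy
  · have h2 := hz k hR y hy
    rwa [add_mul, map_add, ho j k hR a ha y hy, zero_add] at h2

variable (hM : C.MAN)
include hM

theorem PD.push_comp (μ : Hom Y Z) (ν : Hom X Y) (a : C.H X) :
    C.push (Mor.comp μ ν) a = C.push μ (C.push ν a) :=
  (hP.eq_push fun y => by rw [hP.push_spec, hP.push_spec, hM.pb_comp]).symm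

theorem PD.push_tri {μ : Hom Y Z} {ν : Hom X Y} {τ : Hom X Z}
    (h : ∀ x, μ.map (ν.map x) = τ.map x) (a : C.H X) : C.push μ (C.push ν a) = C.push τ a :=
  hP.eq_push fun y => by rw [hP.push_spec, hP.push_spec, hM.pb_tri h]

theorem PD.push_id (a : C.H X) : C.push (idH X) a = a :=
  (hP.eq_push fun y => by rw [hM.pb_id]).symm

theorem PD.mem_dg {j : ℕ} {z : C.H X}
    (hz : ∀ k, j + k ≠ X.dim → ∀ y ∈ C.dg X k, C.itg X (z * y) = 0) : z ∈ C.dg X j :=
  hP.mem_of_orth (hM.iSup_dg X) (R := fun i k => i + k = X.dim)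
    (fun _ _ h _ ha _ hb => hM.itg_dg X h _ (hM.dg_mul X ha hb)) (fun i k h1 h2 => by omega) hz

theorem PD.eq_zero_dg {z : C.H X} (hz : ∀ k, k ≤ X.dim → ∀ y ∈ C.dg X k, C.itg X (z * y) = 0) :
    z = 0 :=
  (hP X).2 _ (hM.ind (by simp) (fun k y hy => (le_or_gt k X.dim).elim (fun h => hz k h y hy)
    fun h => by rw [(Submodule.eq_bot_iff _).1 (hM.dg_gt X h) y hy]; simp)
    fun x y hx hy => by rw [mul_add, map_add, hx, hy, add_zero])

/-- a homogeneous class is tested against the dual degree -/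
theorem PD.eq_zero_of_dg {j : ℕ} {z : C.H X} (hj : z ∈ C.dg X j)
    (hz : ∀ k, j + k = X.dim → ∀ y ∈ C.dg X k, C.itg X (z * y) = 0) : z = 0 :=
  hP.eq_zero_dg hM fun k _ y hy => (eq_or_ne (j + k) X.dim).elim (fun h => hz k h y hy)
    fun h => hM.itg_dg X h _ (hM.dg_mul X hj hy)

theorem PD.push_dg (μ : Hom X Y) {k j : ℕ} (h : k + Y.dim = X.dim + j) {a : C.H X}
    (ha : a ∈ C.dg X k) : C.push μ a ∈ C.dg Y j :=
  hP.mem_dg hM fun i hi y hy => by
    rw [hP.push_spec]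
    exact hM.itg_dg X (by omega) _ (hM.dg_mul X ha (hM.pb_dg μ y hy))

theorem PD.push_neg (μ : Hom X Y) {k : ℕ} (h : k + Y.dim < X.dim) {a : C.H X}
    (ha : a ∈ C.dg X k) : C.push μ a = 0 :=
  hP.eq_zero_dg hM fun i hi y hy => by
    rw [hP.push_spec]
    exact hM.itg_dg X (by omega) _ (hM.dg_mul X ha (hM.pb_dg μ y hy))

theorem PD.cj_push (μ : Hom X Y) (a : C.H X) : C.cj Y (C.push μ a) = C.push μ (C.cj X a) :=
  hP.eq_push fun y => by
    obtain ⟨y, rfl⟩ : ∃ y', y = C.cj Y y' := ⟨_, (hM.cj_cj Y y).symm⟩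
    rw [← map_mul, hM.cj_itg, hP.push_spec, hM.cj_pb, ← map_mul, hM.cj_itg]

theorem PD.top_zero {a : C.H X} (ha : a ∈ C.dg X X.dim) (h : C.itg X a = 0) : a = 0 :=
  hP.eq_zero_of_dg hM ha fun k hk y hy => by
    obtain rfl : k = 0 := by omega
    obtain ⟨c, rfl⟩ := hM.dg_zero X y hy
    rw [mul_comm, ← Algebra.smul_def, map_smul, h, smul_zero]

theorem PD.top_ext {a b : C.H X} (ha : a ∈ C.dg X X.dim) (hb : b ∈ C.dg X X.dim)
    (h : C.itg X a = C.itg X b) : a = b :=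
  sub_eq_zero.1 (hP.top_zero hM (sub_mem ha hb) (by rw [map_sub, h, sub_self]))

theorem PD.top_eq {a : C.H X} (ha : a ∈ C.dg X X.dim) :
    a = (C.itg X a / X.dgr) • C.hc X ^ X.dim :=
  hP.top_ext hM ha (Submodule.smul_mem _ _ (hM.hc_pow X _)) (by
    rw [map_smul, hM.itg_hc, smul_eq_mul, div_mul_cancel₀ _ X.dgr_ne])

/-- **degree formula** (`deg α = 0` if the extension is infinite) -/
theorem PD.itg_pb_deg {μ : Hom X Y} {α : Y.F →ₐ[ℂ] X.F} (hμ : μ.p = Plc.ofHom α) (a : C.H Y) :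
    C.itg X (C.pb μ a) = deg α * C.itg Y a := by
  refine hM.ind (p := fun a => C.itg X (C.pb μ a) = deg α * C.itg Y a) (by simp)
    (fun k a ha => ?_) (fun a b ha hb => by rw [map_add, map_add, map_add, ha, hb, mul_add]) a
  rcases eq_or_ne k Y.dim with rfl | hk
  · rw [hP.top_eq hM ha, map_smul, map_smul, map_smul, map_pow, hM.c1_dmn hμ oP_mem, hM.itg_hc,
      ← List.prod_replicate, ← List.map_replicate,
      hM.c1_num X _ fun b hb => List.eq_of_mem_replicate hb ▸ pb_mem_On hμ oP_mem,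
      ← List.map_replicate, bnum_pb, SV.dgr]
    simp only [smul_eq_mul]
    push_cast
    ring
  · rw [hM.itg_dg Y hk a ha, mul_zero]
    rcases eq_or_ne k X.dim with rfl | hk'
    · have h1 := BD.dim_le α
      rw [(Submodule.eq_bot_iff _).1 (hM.dg_gt Y (lt_of_le_of_ne h1 hk.symm)) a ha]
      simp
    · exact hM.itg_dg X hk' _ (hM.pb_dg μ a ha)

theorem PD.push_one_deg {μ : Hom X Y} {α : Y.F →ₐ[ℂ] X.F} (hμ : μ.p = Plc.ofHom α) :
    C.push μ 1 = (deg α : C.H Y) :=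
  (hP.eq_push fun y => by
    rw [one_mul, hP.itg_pb_deg hM hμ, ← nsmul_eq_mul, map_nsmul, nsmul_eq_mul]).symm

theorem PD.itg_pb_bim {μ : Hom X Y} (h : Bim μ) (a : C.H Y) : C.itg X (C.pb μ a) = C.itg Y a := by
  obtain ⟨α, h1, h2⟩ := h
  rw [hP.itg_pb_deg hM h1, deg_of_surj h2, Nat.cast_one, one_mul]

theorem PD.push_one_bim {μ : Hom X Y} (h : Bim μ) : C.push μ 1 = 1 := by
  obtain ⟨α, h1, h2⟩ := h
  rw [hP.push_one_deg hM h1, deg_of_surj h2, Nat.cast_one]

theorem PD.push_pb_bim {μ : Hom X Y} (h : Bim μ) (y : C.H Y) : C.push μ (C.pb μ y) = y := by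
  rw [hP.push_pb, hP.push_one_bim hM h, one_mul]

/-- the degree of the fibres of a dominant morphism is positive -/
theorem PD.exists_push_hc {μ : Hom X Y} (h : Dmn μ) :
    ∃ c : ℂ, c ≠ 0 ∧ C.push μ (C.hc X ^ (X.dim - Y.dim)) = algebraMap ℂ _ c := by
  have hd := h.dim_le
  obtain ⟨α, hμ⟩ := h
  obtain ⟨c, hc⟩ := hM.dg_zero Y _ (hP.push_dg hM μ (j := 0) (by omega) (hM.hc_pow X (X.dim - Y.dim)))
  refine ⟨c, fun h0 => ?_, hc⟩
  have h1 := hP.push_spec' μ (C.hc X ^ (X.dim - Y.dim)) (C.hc Y ^ Y.dim)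
  rw [hc, h0, map_zero, mul_zero, map_zero, map_pow, hM.c1_dmn hμ oP_mem, ← List.prod_replicate,
    ← List.prod_replicate, ← List.prod_append, ← List.map_replicate (f := C.c1 X),
    ← List.map_replicate (f := C.c1 X), ← List.map_append, hM.c1_num X _ (all_app (all_rp (pb_mem_On hμ oP_mem) _) (all_rp oP_mem _))]
    at h1
  have h2 : Y.dim ≤ Y.h.nu := le_nu (l := []) (by rw [List.append_nil]; exact Y.dgr_pos.ne')
  have h3 := (Y.va.nef.pb α).pos_of_le_nu (h2.trans (Y.va.nef.nu_le_pb α))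
    (l := List.replicate (X.dim - Y.dim) X.h) (by rw [List.length_replicate]; exact Nat.add_sub_cancel' hd)
    (all_rp ⟨X.va.nef, X.va.big⟩ _)
  exact h3.ne (by exact_mod_cast h1)

/-- **the pull-back by a dominant morphism is injective** -/
theorem PD.pb_inj {μ : Hom X Y} (h : Dmn μ) : Function.Injective (C.pb μ) := by
  obtain ⟨c, h0, hc⟩ := hP.exists_push_hc hM h
  refine (injective_iff_map_eq_zero _).2 fun y hy => ?_
  have h1 := hP.push_proj μ (C.hc X ^ (X.dim - Y.dim)) y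
  rw [hy, mul_zero, map_zero, hc, ← Algebra.smul_def] at h1
  exact (smul_eq_zero_iff_right h0).1 h1.symm

theorem PD.push_surj {μ : Hom X Y} (h : Dmn μ) : Function.Surjective (C.push μ) := fun _ =>
  hP.mem_range_push fun y hy => by
    rw [(injective_iff_map_eq_zero _).1 (hP.pb_inj hM h) y hy, mul_zero, map_zero]

end Orth

section Typ

variable (hM : C.MAN) (hT : C.TYP)
include hT

theorem TYP.iSup_typ (X : SV) : ⨆ pq : ℕ × ℕ, C.typ X pq.1 pq.2 = ⊤ :=
  (hT.int X).submodule_iSup_eq_top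

theorem TYP.ind {p : C.H X → Prop} (h0 : p 0) (h1 : ∀ i j, ∀ a ∈ C.typ X i j, p a)
    (h2 : ∀ a b, p a → p b → p (a + b)) (a : C.H X) : p a :=
  Submodule.iSup_induction (fun pq : ℕ × ℕ => C.typ X pq.1 pq.2) (motive := p)
    (hT.iSup_typ X ▸ Submodule.mem_top) (fun pq => h1 pq.1 pq.2) h0 h2

include hM

theorem TYP.gt' (X : SV) (p : ℕ) {q : ℕ} (h : X.dim < q) : C.typ X p q = ⊥ :=
  (Submodule.eq_bot_iff _).2 fun a ha => by
    have h1 := hT.cj X a ha
    rw [hT.gt X p h, Submodule.mem_bot] at h1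
    rw [← hM.cj_cj X a, h1, map_zero]

theorem TYP.itg_typ {p q : ℕ} (h : ¬ (p = X.dim ∧ q = X.dim)) {a : C.H X} (ha : a ∈ C.typ X p q) :
    C.itg X a = 0 := by
  have h0 : C.typ X p q = ⊥ → C.itg X a = 0 := fun h => by
    rw [(Submodule.eq_bot_iff _).1 h a ha, map_zero]
  rcases Nat.even_or_odd (p + q) with ⟨k, hk⟩ | ho
  · rcases eq_or_ne k X.dim with rfl | h1
    · rcases lt_trichotomy p X.dim with h2 | h2 | h2
      · exact h0 (hT.gt' hM X p (by omega))
      · exact absurd ⟨h2, by omega⟩ h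
      · exact h0 (hT.gt X q h2)
    · exact hM.itg_dg X h1 a (hT.le X (by omega) ha)
  · exact h0 (hT.odd X ho)

variable (hP : C.PD)
include hP

theorem TYP.mem_typ {p q : ℕ} {z : C.H X} (hz : ∀ i j, ¬ (p + i = X.dim ∧ q + j = X.dim) →
    ∀ y ∈ C.typ X i j, C.itg X (z * y) = 0) : z ∈ C.typ X p q :=
  hP.mem_of_orth (hT.iSup_typ X) (R := fun a b => a.1 + b.1 = X.dim ∧ a.2 + b.2 = X.dim)
    (fun _ _ h _ ha _ hb => hT.itg_typ hM h (hT.mul X ha hb)) (j := (p, q))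
    (fun i k h1 h2 => Prod.ext (by simp only at *; omega) (by simp only at *; omega))
    fun k => hz k.1 k.2

theorem TYP.eq_zero {z : C.H X} (hz : ∀ i j, i ≤ X.dim → j ≤ X.dim →
    ∀ y ∈ C.typ X i j, C.itg X (z * y) = 0) : z = 0 :=
  (hP X).2 _ (hT.ind (by simp) (fun i j y hy => by
    rcases le_or_gt i X.dim with h1 | h1
    · rcases le_or_gt j X.dim with h2 | h2
      · exact hz i j h1 h2 y hy
      · rw [(Submodule.eq_bot_iff _).1 (hT.gt' hM X i h2) y hy]; simp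
    · rw [(Submodule.eq_bot_iff _).1 (hT.gt X j h1) y hy]; simp)
    fun x y hx hy => by rw [mul_add, map_add, hx, hy, add_zero])

/-- a class of pure type is tested against the dual type -/
theorem TYP.eq_zero_of_typ {p q : ℕ} {z : C.H X} (h : z ∈ C.typ X p q)
    (hz : ∀ i j, p + i = X.dim → q + j = X.dim → ∀ y ∈ C.typ X i j, C.itg X (z * y) = 0) :
    z = 0 :=
  hT.eq_zero hM hP fun i j _ _ y hy => by
    by_cases h1 : p + i = X.dim ∧ q + j = X.dim
    · exact hz i j h1.1 h1.2 y hy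
    · exact hT.itg_typ hM h1 (hT.mul X h hy)

theorem TYP.push_typ (μ : Hom X Y) {p q p' q' : ℕ} (h1 : p + Y.dim = X.dim + p')
    (h2 : q + Y.dim = X.dim + q') {a : C.H X} (ha : a ∈ C.typ X p q) :
    C.push μ a ∈ C.typ Y p' q' :=
  hT.mem_typ hM hP fun i j h y hy => by
    rw [hP.push_spec]
    exact hT.itg_typ hM (by omega) (hT.mul X ha (hT.pb μ y hy))

theorem TYP.push_neg (μ : Hom X Y) {p q : ℕ} (h : p + Y.dim < X.dim ∨ q + Y.dim < X.dim)
    {a : C.H X} (ha : a ∈ C.typ X p q) : C.push μ a = 0 :=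
  hT.eq_zero hM hP fun i j _ _ y hy => by
    rw [hP.push_spec]
    exact hT.itg_typ hM (by omega) (hT.mul X ha (hT.pb μ y hy))

theorem TYP.one_mem (X : SV) : (1 : C.H X) ∈ C.typ X 0 0 :=
  hT.mem_typ hM hP fun i j h y hy => by
    rw [one_mul]
    exact hT.itg_typ hM (by omega) hy

theorem TYP.hc_pow (X : SV) (m : ℕ) : C.hc X ^ m ∈ C.typ X m m := by
  induction m with
  | zero => simpa using hT.one_mem hM hP X
  | succ m ih => rw [pow_succ]; exact hT.mul X ih (hT.c1 X _ oP_mem)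

/-- a class of degree `2 k` is a sum of classes of types `(p, q)`, `p + q = 2 k` -/
theorem TYP.dg_eq (X : SV) (k : ℕ) :
    C.dg X k = ⨆ (p : ℕ) (q : ℕ) (_ : p + q = 2 * k), C.typ X p q := by
  have hle : (⨆ (p : ℕ) (q : ℕ) (_ : p + q = 2 * k), C.typ X p q) ≤ C.dg X k :=
    iSup_le fun p => iSup_le fun q => iSup_le fun h => hT.le X h
  refine le_antisymm (fun a ha => ?_) hle
  obtain ⟨w, hw, h⟩ : ∃ w ∈ ⨆ (p : ℕ) (q : ℕ) (_ : p + q = 2 * k), C.typ X p q,
      ∀ i, k + i = X.dim → ∀ y ∈ C.dg X i, C.itg X ((a - w) * y) = 0 := by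
    refine hT.ind (p := fun a => ∃ w ∈ ⨆ (p : ℕ) (q : ℕ) (_ : p + q = 2 * k), C.typ X p q,
      ∀ i, k + i = X.dim → ∀ y ∈ C.dg X i, C.itg X ((a - w) * y) = 0) ⟨0, zero_mem _, by simp⟩
      (fun p q x hx => ?_) ?_ a
    · by_cases h : p + q = 2 * k
      · exact ⟨x, Submodule.mem_iSup_of_mem p (Submodule.mem_iSup_of_mem q
          (Submodule.mem_iSup_of_mem h hx)), by simp⟩
      · refine ⟨0, zero_mem _, fun i hi y hy => ?_⟩
        rw [sub_zero]
        rcases Nat.even_or_odd (p + q) with ⟨j, hj⟩ | ho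
        · exact hM.itg_dg X (k := j + i) (by omega) _ (hM.dg_mul X (hT.le X (by omega) hx) hy)
        · rw [(Submodule.eq_bot_iff _).1 (hT.odd X ho) x hx]
          simp
    · rintro x x' ⟨w, hw, h⟩ ⟨w', hw', h'⟩
      refine ⟨w + w', add_mem hw hw', fun i hi y hy => ?_⟩
      rw [add_sub_add_comm, add_mul, map_add, h i hi y hy, h' i hi y hy, add_zero]
  rwa [sub_eq_zero.1 (hP.eq_zero_of_dg hM (sub_mem ha (hle hw)) h)]

end Typ

end Th

end Crest.Agent.X262.Coh
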