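import Crest.Agent.X277.BD.BrA
import Crest.Agent.X277.BD.Num
import Crest.Agent.X277.Cns.Prod

/-!
# Row 262, COH (helper45): the class-level cohomology interface

* `SV` : smooth projective varieties, `Hom`, `SV.prod`, `fst`, `snd`, `pair`, `dia`, `pmap`;
* `Bim`, `IsEmb`, `LPb`, `DPb`, `IsDv`, `BirIm`, `IsPr`, `Mult`, `Cyc` : geometric predicates;
* `Th` : the data of a cohomology theory (classes of even degree); `push`, `T`, `Zc`, `Alg`;
* one `Prop` for each primitive fact, `Th.Ax` their conjunction.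
-/

set_option autoImplicit false
set_option linter.style.haveILetI false

open Filter Topology
open scoped KaehlerDifferential

noncomputable section

namespace Crest.Agent.X262.Coh

open Crest.Agent.X277 Crest.Agent.X277.Lef Crest.Agent.X277.AN.G1 Crest.Agent.X277.BD
  Crest.Agent.X277.BD.Br Crest.Agent.R274.Prod1_134

/-! ### varieties -/

/-- a smooth projective variety: a field with a smooth projective model -/
structure SV where
  /-- the function field -/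
  F : Type
  [fld : Field F]
  [alg : Algebra ℂ F]
  /-- the model -/
  P : PModel ℂ F

attribute [instance] SV.fld SV.alg

/-- the variety of a model -/
abbrev sv {F : Type} [Field F] [Algebra ℂ F] (P : PModel ℂ F) : SV := ⟨F, P⟩

instance (X : SV) : Algebra.EssFiniteType ℂ X.F := by
  haveI := X.P.isFractionRing 0
  haveI : Algebra.EssFiniteType (X.P.A 0) X.F :=
    Algebra.EssFiniteType.of_isLocalization X.F (nonZeroDivisors (X.P.A 0))
  exact Algebra.EssFiniteType.comp ℂ (X.P.A 0) X.F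

/-- the dimension -/
abbrev SV.dim (X : SV) : ℕ := BD.dim ℂ X.F

/-- the points -/
abbrev SV.Pt (X : SV) : Type := Pts X.P

/-- the Cartier divisors -/
abbrev SV.On (X : SV) : AddSubgroup (BD ℂ X.F) := Br.On X.P

/-- the hyperplane divisor -/
abbrev SV.h (X : SV) : BD ℂ X.F := oP X.P

/-- the regular one-forms (`Top.Reg1`) -/
def SV.R1 (X : SV) : Submodule ℂ Ω[X.F⁄ℂ] :=
  ⨅ x : X.Pt, Submodule.span ℂ
    {η | ∃ a ∈ (lp x).O, ∃ c ∈ (lp x).O, η = a • KaehlerDifferential.D ℂ X.F c}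

/-- morphisms; `μ.comp ν` is `μ ∘ ν` -/
abbrev Hom (X Y : SV) : Type := Mor X.P Y.P

/-- the identity -/
abbrev idH (X : SV) : Hom X X := Cns.idM X.P

/-- the product -/
abbrev SV.prod (X Y : SV) : SV := sv (Cns.prod X.P Y.P (isPF ℂ X.F Y.F))

/-- the first projection -/
abbrev fst (X Y : SV) : Hom (X.prod Y) X := Cns.fst X.P Y.P (isPF ℂ X.F Y.F)

/-- the second projection -/
abbrev snd (X Y : SV) : Hom (X.prod Y) Y := Cns.snd X.P Y.P (isPF ℂ X.F Y.F)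

/-- the morphism to a product with given components -/
abbrev pair {Z X Y : SV} (μ : Hom Z X) (ν : Hom Z Y) : Hom Z (X.prod Y) :=
  Cns.pair (isPF ℂ X.F Y.F) μ ν

/-- the diagonal -/
abbrev dia (X : SV) : Hom X (X.prod X) := pair (idH X) (idH X)

/-- the product of two morphisms -/
abbrev pmap {X Y X' Y' : SV} (μ : Hom X X') (ν : Hom Y Y') : Hom (X.prod Y) (X'.prod Y') :=
  pair (Mor.comp μ (fst X Y)) (Mor.comp ν (snd X Y))

section Geo

variable {X Y : SV}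

/-- dominant -/
def Dmn (μ : Hom X Y) : Prop := ∃ α : Y.F →ₐ[ℂ] X.F, μ.p = Plc.ofHom α

/-- birational -/
def Bim (μ : Hom X Y) : Prop :=
  ∃ α : Y.F →ₐ[ℂ] X.F, μ.p = Plc.ofHom α ∧ Function.Surjective α

/-- closed embedding -/
def IsEmb (j : Hom X Y) : Prop :=
  Function.Injective j.map ∧
    ∀ x : X.Pt, ∀ g ∈ (lp x).O, ∃ f ∈ (lp (j.map x)).O, j.p.π f = g

/-- `O(a')` is the pull-back of `O(a)`; the rational section `u` of `O(a)` goes to `1` -/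
def LPbU (μ : Hom X Y) (a : BD ℂ Y.F) (a' : BD ℂ X.F) (u : Y.F) : Prop :=
  ∀ (x : X.Pt) (g : Y.F), At a (μ.map x) g → At a' x (μ.p.π (g / u))

/-- `O(a')` is the pull-back of the line bundle `O(a)` -/
def LPb (μ : Hom X Y) (a : BD ℂ Y.F) (a' : BD ℂ X.F) : Prop := ∃ u, LPbU μ a a' u

/-- `a'` is the pull-back of the divisor `a` (the image is not in the support of `a`) -/
def DPb (μ : Hom X Y) (a : BD ℂ Y.F) (a' : BD ℂ X.F) : Prop := LPbU μ a a' 1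

/-- `j` embeds `X` as the smooth irreducible divisor `a` -/
structure IsDv (j : Hom X Y) (a : BD ℂ Y.F) : Prop where
  emb : IsEmb j
  off : ∀ y : Y.Pt, y ∉ Set.range j.map → At a y 1
  eqn : ∀ x : X.Pt, ∃ t ∈ (lp (j.map x)).O, At a (j.map x) t⁻¹ ∧
    ∀ f ∈ (lp (j.map x)).O, j.p.π f = 0 ↔ f / t ∈ (lp (j.map x)).O

/-- birational onto the image -/
def BirIm (v : Hom X Y) : Prop :=
  ∀ (x : X.Pt) (g : X.F), ∃ a ∈ (lp (v.map x)).O, ∃ c ∈ (lp (v.map x)).O,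
    v.p.π c ≠ 0 ∧ g * v.p.π c = v.p.π a

/-- a smooth model of a prime divisor of `Y` -/
def IsPr (v : Hom X Y) : Prop := BirIm v ∧ X.dim + 1 = Y.dim

/-- the multiplicity of `a` along the prime divisor `v` is `m` -/
def Mult (v : Hom X Y) (a : BD ℂ Y.F) (m : ℤ) : Prop :=
  ∃ ϖ ∈ v.p.O, ϖ ≠ 0 ∧ v.p.π ϖ = 0 ∧ (∀ f ∈ v.p.O, v.p.π f = 0 → f / ϖ ∈ v.p.O) ∧
    ∀ (x : X.Pt) (g : Y.F), At a (v.map x) g → v.p.π (g * ϖ ^ m) ≠ 0

/-- `a = ∑ m i • [v i]`, with arbitrary smooth models `v i` of distinct prime divisors -/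
structure Cyc {ι : Type} {G : ι → SV} (v : ∀ i, Hom (G i) Y) (m : ι → ℤ) (a : BD ℂ Y.F) :
    Prop where
  on : a ∈ Y.On
  pr : ∀ i, IsPr (v i)
  mult : ∀ i, Mult (v i) a (m i)
  inj : ∀ i j, (v i).p.O = (v j).p.O → i = j
  off : ∀ y : Y.Pt, (∀ i, y ∉ Set.range (v i).map) → At a y 1

end Geo

/-! ### cohomology theories -/

/-- the data of a cohomology theory -/
structure Th where
  /-- complex classes of even degree -/
  H : SV → Type
  [ring : ∀ X, CommRing (H X)]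
  [alg : ∀ X, Algebra ℂ (H X)]
  /-- classes of degree `2 k` -/
  dg : ∀ X, ℕ → Submodule ℂ (H X)
  /-- classes of type `(p, q)` -/
  typ : ∀ X, ℕ → ℕ → Submodule ℂ (H X)
  /-- the integral -/
  itg : ∀ X, H X →ₗ[ℂ] ℂ
  /-- the pull-back -/
  pb : ∀ {X Y : SV}, Hom X Y → (H Y →ₐ[ℂ] H X)
  /-- complex conjugation -/
  cj : ∀ X, H X →+* H X
  /-- the first Chern class of `O(a)`, for `a ∈ X.On` -/
  c1 : ∀ X : SV, BD ℂ X.F → H X
  /-- the integral classes of degree `2` -/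
  Lam : ∀ X, AddSubgroup (H X)

attribute [instance] Th.ring Th.alg

namespace Th

variable (C : Th)

/-- the pairing -/
def prg (X : SV) : C.H X →ₗ[ℂ] Module.Dual ℂ (C.H X) :=
  (LinearMap.mul ℂ (C.H X)).compr₂ (C.itg X)

/-- the push-forward: the adjoint of the pull-back -/
def push {X Y : SV} (μ : Hom X Y) : C.H X →ₗ[ℂ] C.H Y :=
  (C.prg Y).leftInverse ∘ₗ (C.pb μ).toLinearMap.dualMap ∘ₗ C.prg X

/-- the hyperplane class -/
abbrev hc (X : SV) : C.H X := C.c1 X X.h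

/-- classes of degree `2 k` without algebraic periods -/
def T (X : SV) (k : ℕ) : Submodule ℂ (C.H X) :=
  C.dg X k ⊓ ⨅ (Z : SV) (μ : Hom Z X), LinearMap.ker (C.itg Z ∘ₗ (C.pb μ).toLinearMap)

/-- the span of the algebraic cycles -/
def Alg (X : SV) : Submodule ℂ (C.H X) :=
  Submodule.span ℂ {x | ∃ (Z : SV) (μ : Hom Z X), x = C.push μ 1}

/-- the integral classes generated by `Lam` -/
def Zc (X : SV) : AddSubgroup (C.H X) :=
  AddSubgroup.closure {x | ∃ (Z : SV) (μ : Hom Z X) (l : List (C.H Z)),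
    (∀ a ∈ l, a ∈ C.Lam Z) ∧ x = C.push μ l.prod}

/-- functoriality, grading, first Chern class, conjugation -/
structure MAN : Prop where
  pb_congr : ∀ {X Y : SV} (μ ν : Hom X Y), μ.map = ν.map → C.pb μ = C.pb ν
  pb_comp : ∀ {X Y Z : SV} (μ : Hom Y Z) (ν : Hom X Y) (a : C.H Z),
    C.pb (Mor.comp μ ν) a = C.pb ν (C.pb μ a)
  pb_id : ∀ (X : SV) (a : C.H X), C.pb (idH X) a = a
  dg_int : ∀ X, DirectSum.IsInternal (C.dg X)
  dg_one : ∀ X, (1 : C.H X) ∈ C.dg X 0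
  dg_mul : ∀ X {i j : ℕ} {a b : C.H X}, a ∈ C.dg X i → b ∈ C.dg X j → a * b ∈ C.dg X (i + j)
  dg_zero : ∀ X, ∀ a ∈ C.dg X 0, ∃ c : ℂ, a = algebraMap ℂ (C.H X) c
  dg_gt : ∀ X {k : ℕ}, X.dim < k → C.dg X k = ⊥
  itg_dg : ∀ X {k : ℕ}, k ≠ X.dim → ∀ a ∈ C.dg X k, C.itg X a = 0
  pb_dg : ∀ {X Y : SV} (μ : Hom X Y) {k : ℕ}, ∀ a ∈ C.dg Y k, C.pb μ a ∈ C.dg X k
  c1_dg : ∀ X, ∀ a ∈ X.On, C.c1 X a ∈ C.dg X 1
  c1_add : ∀ X, ∀ a ∈ X.On, ∀ b ∈ X.On, C.c1 X (a + b) = C.c1 X a + C.c1 X b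
  c1_pr : ∀ (X : SV) (f : X.F), C.c1 X (pr ℂ f) = 0
  c1_pb : ∀ {X Y : SV} (μ : Hom X Y), ∀ a ∈ Y.On, ∀ a', LPb μ a a' →
    C.pb μ (C.c1 Y a) = C.c1 X a'
  c1_num : ∀ (X : SV) (l : List (BD ℂ X.F)), (∀ a ∈ l, a ∈ X.On) →
    C.itg X (l.map (C.c1 X)).prod = (bnum l : ℤ)
  cj_alg : ∀ X (c : ℂ), C.cj X (algebraMap ℂ _ c) = algebraMap ℂ _ (starRingEnd ℂ c)
  cj_cj : ∀ X (a : C.H X), C.cj X (C.cj X a) = a
  cj_dg : ∀ X {k : ℕ}, ∀ a ∈ C.dg X k, C.cj X a ∈ C.dg X k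
  cj_itg : ∀ X (a : C.H X), C.itg X (C.cj X a) = starRingEnd ℂ (C.itg X a)
  cj_pb : ∀ {X Y : SV} (μ : Hom X Y) (a : C.H Y), C.pb μ (C.cj Y a) = C.cj X (C.pb μ a)
  cj_c1 : ∀ X, ∀ a ∈ X.On, C.cj X (C.c1 X a) = C.c1 X a

/-- Poincaré duality -/
def PD : Prop :=
  ∀ X, FiniteDimensional ℂ (C.H X) ∧ ∀ a : C.H X, (∀ b, C.itg X (a * b) = 0) → a = 0

/-- Fubini -/
def FUB : Prop :=
  ∀ (X Y : SV) (a : C.H X) (b : C.H Y),
    C.itg _ (C.pb (fst X Y) a * C.pb (snd X Y) b) = C.itg X a * C.itg Y b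

/-- the class of the diagonal -/
def DIAG : Prop :=
  ∀ {X X' Y : SV} (μ : Hom X Y) (ν : Hom X' Y) (a : C.H X) (b : C.H X'),
    C.itg _ (C.pb (fst X X') a * C.pb (snd X X') b * C.pb (pmap μ ν) (C.push (dia Y) 1)) =
      C.itg Y (C.push μ a * C.push ν b)

/-- the class of the diagonal is supported near the diagonal -/
def SUPD : Prop :=
  ∀ {B Y E : SV} (μ : Hom B (Y.prod Y)) (i : Hom E B), IsEmb i →
    (∀ y : B.Pt, μ.map y ∈ Set.range (dia Y).map → y ∈ Set.range i.map) →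
    ∀ y : C.H B, C.pb i y = 0 → C.itg B (y * C.pb μ (C.push (dia Y) 1)) = 0

/-- supports, strong form (a formal consequence of `Ax`) -/
def SUP : Prop :=
  ∀ {A B V : SV} (ν : Hom A V) (μ : Hom B V) {ι : Type} [Finite ι] (E : ι → SV)
    (i : ∀ k, Hom (E k) B), (∀ y : B.Pt, μ.map y ∈ Set.range ν.map → ∃ k, y ∈ Set.range (i k).map) →
    ∀ (x : C.H A) (y : C.H B), (∀ k, C.pb (i k) y = 0) → C.itg B (y * C.pb μ (C.push ν x)) = 0

/-- the total transform of the diagonal lives on a smooth divisor (from `SUPD` or from the descent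
theorem for the blow-up of the diagonal) -/
def DBL : Prop :=
  ∀ Y : SV, 0 < Y.dim → ∃ (B E : SV) (b : Hom B (Y.prod Y)) (j : Hom E B) (a : BD ℂ B.F),
    Bim b ∧ IsDv j a ∧ (∀ y : B.Pt, b.map y ∈ Set.range (dia Y).map ↔ y ∈ Set.range j.map) ∧
    ∃ γ : C.H E, C.pb b (C.push (dia Y) 1) = C.push j γ

/-- Poincaré-Lelong for a smooth divisor -/
def PL0 : Prop := ∀ {D X : SV} (j : Hom D X) (a : BD ℂ X.F), IsDv j a → C.push j 1 = C.c1 X a

/-- base change of the Gysin map; the components of the pull-back are smooth -/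
def BC1 : Prop :=
  ∀ {D X B : SV} (j : Hom D X) (a : BD ℂ X.F) (u : Hom B X) {ι : Type} [Fintype ι] (G : ι → SV)
    (v : ∀ i, Hom (G i) B) (e : ι → BD ℂ B.F) (m : ι → ℕ) (w : ∀ i, Hom (G i) D),
    IsDv j a → (∀ i, IsDv (v i) (e i)) → DPb u a (∑ i, m i • e i) →
    (∀ i, (Mor.comp j (w i)).map = (Mor.comp u (v i)).map) →
    ∀ x : C.H D, C.pb u (C.push j x) = ∑ i, m i • C.push (v i) (C.pb (w i) x)

/-- self-intersection of a smooth divisor -/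
def BC2 : Prop :=
  ∀ {D X : SV} (j : Hom D X) (a : BD ℂ X.F), IsDv j a →
    ∀ x : C.H D, C.pb j (C.push j x) = C.pb j (C.c1 X a) * x

/-- the Leray-Hirsch property of `π : E → Z` with fibres `P ^ (c - 1)` and tautological class `ξ`
(helper98 proves it for his projective bundles) -/
structure LHAt {E Z : SV} (π : Hom E Z) (ξ : C.H E) (c : ℕ) : Prop where
  span : ∀ k, k < c → ∀ x ∈ C.dg E k, ∃ y : ℕ → C.H Z, (∀ i, y i ∈ C.dg Z i) ∧
    x = ∑ i ∈ Finset.range (k + 1), C.pb π (y i) * ξ ^ (k - i)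
  fib : ∀ y : C.H Z, C.itg E (ξ ^ (c - 1) * C.pb π y) = C.itg Z y

/-- the cohomology of projective space -/
def PN : Prop :=
  ∀ X : SV, (∀ (m : ℕ) (q : MvPolynomial (Fin (X.P.N + 1)) ℂ), q.IsHomogeneous m →
    MvPolynomial.aeval X.P.y q = 0 → q = 0) → ∀ k, C.dg X k = Submodule.span ℂ {C.hc X ^ k}

/-- Hodge decomposition -/
structure TYP : Prop where
  int : ∀ X, DirectSum.IsInternal fun pq : ℕ × ℕ => C.typ X pq.1 pq.2
  le : ∀ X {p q k : ℕ}, p + q = 2 * k → C.typ X p q ≤ C.dg X k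
  odd : ∀ X {p q : ℕ}, Odd (p + q) → C.typ X p q = ⊥
  gt : ∀ X {p : ℕ} (q : ℕ), X.dim < p → C.typ X p q = ⊥
  mul : ∀ X {p q p' q' : ℕ} {a b : C.H X}, a ∈ C.typ X p q → b ∈ C.typ X p' q' →
    a * b ∈ C.typ X (p + p') (q + q')
  pb : ∀ {X Y : SV} (μ : Hom X Y) {p q : ℕ}, ∀ a ∈ C.typ Y p q, C.pb μ a ∈ C.typ X p q
  cj : ∀ X {p q : ℕ}, ∀ a ∈ C.typ X p q, C.cj X a ∈ C.typ X q p
  c1 : ∀ X, ∀ a ∈ X.On, C.c1 X a ∈ C.typ X 1 1

/-- hard Lefschetz -/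
def HL : Prop :=
  ∀ (X : SV) (k j : ℕ), 2 * k + j = X.dim → ∀ a ∈ C.dg X k, C.hc X ^ j * a = 0 → a = 0

/-- Hodge-Riemann -/
def HR : Prop :=
  ∀ (X : SV) (p q j : ℕ), p + q + j = X.dim → ∀ a ∈ C.typ X p q, a ≠ 0 →
    C.hc X ^ (j + 1) * a = 0 → 0 < ((-1) ^ p * C.itg X (C.hc X ^ j * (a * C.cj X a))).re

/-- top holomorphic forms are sections of the canonical divisor (even dimension) -/
def PG : Prop :=
  ∀ (X : SV) (k : ℕ) (b : Module.Basis (Fin (2 * k)) X.F Ω[X.F⁄ℂ]),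
    Module.finrank ℂ (C.typ X (2 * k) 0) = Module.finrank ℂ (kP X.P b).Sec

/-- integral classes -/
structure LAM : Prop where
  dg : ∀ X, ∀ a ∈ C.Lam X, a ∈ C.dg X 1
  cj : ∀ X, ∀ a ∈ C.Lam X, C.cj X a = a
  pb : ∀ {X Y : SV} (μ : Hom X Y), ∀ a ∈ C.Lam Y, C.pb μ a ∈ C.Lam X
  c1 : ∀ X, ∀ a ∈ X.On, C.c1 X a ∈ C.Lam X
  itg : ∀ X (l : List (C.H X)), (∀ a ∈ l, a ∈ C.Lam X) → ∃ m : ℤ, C.itg X l.prod = m

/-- on a surface the integral classes are a unimodular lattice -/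
def UNI : Prop :=
  ∀ X : SV, X.dim = 2 → Submodule.span ℂ (C.Lam X : Set (C.H X)) = C.dg X 1 ∧
    ∀ x ∈ C.dg X 1, (∀ y ∈ C.Lam X, ∃ k : ℤ, C.itg X (x * y) = k) → x ∈ C.Lam X

/-- Lefschetz's theorem on `(1,1)`-classes of a surface -/
def L11 : Prop :=
  ∀ X : SV, X.dim = 2 → ∀ x ∈ C.Lam X, x ∈ C.typ X 1 1 → ∃ a ∈ X.On, x = C.c1 X a

/-- Noether's formula `b₂ + K² + 8 q = 10 + 12 p_g` -/
def NOE : Prop :=
  ∀ (X : SV) (b : Module.Basis (Fin 2) X.F Ω[X.F⁄ℂ]),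
    (Module.finrank ℂ (C.dg X 1) : ℤ) + bnum [kP X.P b, kP X.P b] + 8 * Module.finrank ℂ X.R1 =
      10 + 12 * Module.finrank ℂ (kP X.P b).Sec

/-- Künneth for a regular surface (no odd cohomology) -/
def KUN : Prop :=
  ∀ X Y : SV, X.dim = 2 → X.R1 = ⊥ → ∀ z : C.H (X.prod Y),
    z ∈ Submodule.span ℂ {z | ∃ a b, z = C.pb (fst X Y) a * C.pb (snd X Y) b}

/-- all primitive facts -/
structure Ax : Prop where
  man : C.MAN
  pd : C.PD
  fub : C.FUB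
  diag : C.DIAG
  dbl : C.DBL
  pl0 : C.PL0
  bc1 : C.BC1
  bc2 : C.BC2
  pn : C.PN
  typ : C.TYP
  hl : C.HL
  hr : C.HR
  pg : C.PG
  lam : C.LAM
  uni : C.UNI
  l11 : C.L11
  noe : C.NOE
  kun : C.KUN

end Th

end Crest.Agent.X262.Coh
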