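import Crest.Agent.X262.Coh.Num
import Crest.Agent.X277.AN.G1An

/-!
# Row 262, COH (helper45): local equations of a smooth divisor

* `IsDv.ker`, `IsDv.ev_iff` : every generator of `O(-a)` is a local equation;
* `IsDv.dv_ne` : its differential does not vanish;
* `DPb.unit` : the pull-back of an equation is a monomial up to a unit.
-/

set_option autoImplicit false

open Filter Topology

noncomputable section

namespace Crest.Agent.X262.Coh

open Crest.Agent.X277 Crest.Agent.X277.Lef Crest.Agent.X277.AN.G1 Crest.Agent.X277.BD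
  Crest.Agent.X277.BD.Br
open Crest.Agent.R275.Geo (Cn)

variable {D X : SV} {j : Hom D X} {a : BD ℂ X.F} {t : X.F}

theorem mem_of_at {x : X.Pt} (h0 : 0 ≤ a) (ht : At a x t⁻¹) : t ∈ (lp x).O := by
  simpa using (at_zero x).div_mem_of_le ht h0

theorem exists_at_inv (ha : a ∈ X.On) (x : X.Pt) : ∃ t, At a x t⁻¹ :=
  (ha x).elim fun g hg => ⟨g⁻¹, by rwa [inv_inv]⟩

theorem IsDv.ker (h : IsDv j a) {y : D.Pt} (ht : At a (j.map y) t⁻¹) {f : X.F}
    (hf : f ∈ (lp (j.map y)).O) : j.p.π f = 0 ↔ f / t ∈ (lp (j.map y)).O := by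
  obtain ⟨s, -, h2, h3⟩ := h.eqn y
  have key : ∀ {s t : X.F}, At a (j.map y) s⁻¹ → At a (j.map y) t⁻¹ → f / s ∈ (lp (j.map y)).O →
      f / t ∈ (lp (j.map y)).O := fun {s t} hs ht h1 => by
    have h4 := mul_mem h1 (LP.mem_of_ne (ht.ev_div_ne hs))
    rwa [inv_div_inv, div_mul_div_cancel₀ (by simpa using hs.ne)] at h4
  exact (h3 f hf).trans ⟨key h2 ht, key ht h2⟩

theorem IsDv.π_eqn (h : IsDv j a) {y : D.Pt} (ht : At a (j.map y) t⁻¹) : j.p.π t = 0 :=
  (h.ker ht (mem_of_at h.nonneg ht)).2 (by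
    rw [div_self (by simpa using ht.ne)]; exact one_mem _)

theorem IsDv.ev_iff (h : IsDv j a) {x : X.Pt} (ht : At a x t⁻¹) :
    ev t x = 0 ↔ x ∈ Set.range j.map := by
  refine ⟨fun h0 => by_contra fun hx => ?_, ?_⟩
  · simpa [h0] using (h.off x hx).ev_div_ne ht
  · rintro ⟨y, rfl⟩
    rw [j.ev_map (mem_of_at h.nonneg ht), h.π_eqn ht]
    exact LP.v_zero _

/-- the differential of a local equation does not vanish -/
theorem IsDv.dv_ne (h : IsDv j a) {m n : ℕ} (A' : AnP D.P m) (A : AnP X.P n) (hm : m < n)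
    {y : D.Pt} (ht : At a (j.map y) t⁻¹) {α : A.A.ι} (hα : j.map y ∈ (A.A.e α).source) :
    ∃ w, A.dv α (j.map y) w t ≠ 0 := by
  obtain ⟨β, hβ⟩ := A'.A.cover y
  choose W h1 h2 using fun k => h.emb.2 y _ (AnP.z_mem hβ k)
  let L : Cn n →ₗ[ℂ] Fin m → ℂ := LinearMap.pi fun k =>
    (fderiv ℂ (A.rd α (ev (W k))) (A.A.e α (j.map y)) : Cn n →ₗ[ℂ] ℂ)
  obtain ⟨w, h3, h4⟩ := Submodule.exists_mem_ne_zero_of_ne_bot
    (LinearMap.ker_ne_bot_of_finrank_lt (f := L) (by simpa using hm))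
  have h5 : ∀ k, A.dv α (j.map y) w (W k) = 0 := fun k => congrFun h3 k
  refine ⟨w, fun h0 => h4 ?_⟩
  ext l
  have h6 := AnP.z_mem hα l
  obtain ⟨c, h7, h8⟩ := (A'.crd β y hβ).gen _ (j.π_mem h6)
  choose C h9 h10 using fun k => h.emb.2 y _ (h7 k)
  set r : ℂ := (lp y).v (j.p.π (A.z α l))
  set u : Fin m → X.F := fun k => W k - algebraMap ℂ X.F ((lp y).v (A'.z β k)) with hu
  have h11 : ∀ k, u k ∈ (lp (j.map y)).O := fun k => sub_mem (h1 k) (algebraMap_mem _ _)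
  have h12 : ∀ k, C k * u k ∈ (lp (j.map y)).O := fun k => mul_mem (h9 k) (h11 k)
  have h13 : ∑ k, C k * u k ∈ (lp (j.map y)).O := sum_mem fun k _ => h12 k
  have h14 : ∀ k, j.p.π (u k) = A'.z β k - algebraMap ℂ D.F ((lp y).v (A'.z β k)) := fun k => by
    rw [hu, Plc.π_sub (j.mem_O (h1 k)) (algebraMap_mem _ _), h2, j.p.π_alg]
  have h15 : A.z α l - algebraMap ℂ X.F r - ∑ k, C k * u k ∈ (lp (j.map y)).O :=
    sub_mem (sub_mem h6 (algebraMap_mem _ _)) h13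
  have h16 : j.p.π (∑ k, C k * u k) = ∑ k, j.p.π (C k) * j.p.π (u k) := by
    have := map_sum j.p.hom (fun k => (⟨C k, j.mem_O (h9 k)⟩ * ⟨u k, j.mem_O (h11 k)⟩ : j.p.O))
      Finset.univ
    simpa only [map_mul, Plc.hom_apply, AddSubmonoidClass.coe_finsetSum, MulMemClass.coe_mul]
      using this
  have h17 := (h.ker ht h15).1 (by
    rw [Plc.π_sub (j.mem_O (sub_mem h6 (algebraMap_mem _ _))) (j.mem_O h13),
      Plc.π_sub (j.mem_O h6) (algebraMap_mem _ _), j.p.π_alg, h16, sub_sub, sub_eq_zero]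
    simpa only [h10, h14] using h8)
  have h18 : A.z α l - algebraMap ℂ X.F r = t * ((A.z α l - algebraMap ℂ X.F r -
      ∑ k, C k * u k) / t) + ∑ k, C k * u k := by
    rw [mul_div_cancel₀ _ (by simpa using ht.ne), sub_add_cancel]
  have h19 := mem_of_at h.nonneg ht
  have h20 : ∀ k, A.dv α (j.map y) w (C k * u k) = 0 := fun k => by
    rw [AnP.dv_mul hα w (h9 k) (h11 k), AnP.dv_sub_alg hα w (h1 k), h5, j.ev_map (h11 k), h14]
    unfold ev
    rw [LP.v_sub (AnP.z_mem hβ k) (algebraMap_mem _ _), LP.v_alg]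
    simp
  rw [← AnP.dv_z hα w l, ← AnP.dv_sub_alg hα w h6 r, h18, AnP.dv_add hα w (mul_mem h19 h17) h13,
    AnP.dv_mul hα w h19 h17, h0, (h.ev_iff ht).2 ⟨y, rfl⟩, AnP.dv_sum hα w _ fun k _ => h12 k]
  simp [h20]

/-- the pull-back of an equation is a monomial up to a unit -/
theorem DPb.unit {B : SV} {u : Hom B X} {ι : Type} [Fintype ι] {e : ι → BD ℂ B.F} {m : ι → ℕ}
    (h : DPb u a (∑ i, m i • e i)) {x : B.Pt} (ht : At a (u.map x) t⁻¹) {s : ι → B.F}
    (hs : ∀ i, At (e i) x (s i)⁻¹) :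
    ∃ ε : B.F, ev ε x ≠ 0 ∧ u.p.π t = ε * ∏ i, s i ^ m i := by
  have h1 := h x _ ht
  have h2 := at_sum Finset.univ fun i _ => (hs i).nsmul (m i)
  refine ⟨_, h2.ev_div_ne h1, ?_⟩
  have h3 := Plc.π_inv h1.ne
  rw [div_one, inv_inv] at h3
  have h4 : ∀ i, s i ≠ 0 := fun i => by simpa using (hs i).ne
  rw [div_one, h3, div_mul_eq_mul_div, ← Finset.prod_mul_distrib, Finset.prod_eq_one, one_div]
  exact fun i _ => by rw [← mul_pow, inv_mul_cancel₀ (h4 i), one_pow]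

end Crest.Agent.X262.Coh
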