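import Crest.Agent.X262.Coh.Main0
import Crest.Agent.X262.Lat.C1
import Crest.Agent.X262.Itg23.Main
import Crest.Agent.X262.LatQ.P3
import Crest.Agent.X262.P12.Main
import Crest.Agent.X262.Van.SupP
import Crest.Agent.X262.Dbl58.Main

/-!
# Row 262, COH (helper45): the theory `th` satisfies `Th.Ax`
-/

set_option autoImplicit false

noncomputable section

namespace Crest.Agent.X262.Coh

/-- **the de Rham theory** -/
abbrev th : Th := th0 Lat.LamP

theorem uni_th : th.UNI :=
  Lat.uni_of _ _ P12.p1Stmt P12.p2Stmt LatQ.p3Stmt fun _ _ _ P X => LatQ.exists_om P X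

theorem ax_th : th.Ax :=
  ax_of _ (Dbl58.dbl_of (PD.th_pd _ _ _) (Van.supd _ _ _))
    (Lat.lam_of _ Itg23.itgStmt Lat.c1Cd) uni_th Lat.l11

end Crest.Agent.X262.Coh
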