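import Crest.Agent.X262.PL.Man
import Crest.Agent.X262.Man.FS
import Crest.Agent.X262.Eul93.Main
import Crest.Agent.X262.PD.Pn
import Crest.Agent.X262.Pg60.Main
import Crest.Agent.X262.Noe83.Th
import Crest.Agent.X262.Irr93.Bet
import Crest.Agent.X262.Q74.Odd

/-!
# Row 262, COH (helper45): the de Rham theory

* `th0 Lam : Th`; `ax_of` : all fields but `DBL`, `LAM`, `UNI`, `L11`.
-/

set_option autoImplicit false

noncomputable section

namespace Crest.Agent.X262.Coh

open Crest.Agent.X262.Man Crest.Agent.X262.Kah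

/-- the de Rham theory; the integral classes are a parameter -/
abbrev th0 (Lam : ∀ X : SV, AddSubgroup (HP X.P)) : Th := thOf typP PL.c1 Lam

theorem ax_of (Lam : ∀ X : SV, AddSubgroup (HP X.P)) (hd : (th0 Lam).DBL) (h1 : (th0 Lam).LAM)
    (h2 : (th0 Lam).UNI) (h3 : (th0 Lam).L11) : (th0 Lam).Ax where
  man := PL.man_th _ _
  pd := PD.th_pd _ _ _
  fub := PD.th_fub _ _ _
  diag := PD.th_diag _ _ _
  dbl := hd
  pl0 := PL.pl0_th _ _
  bc1 := PL.bc1_th _ _
  bc2 := PL.bc2_th _ _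
  pn := PD.th_pn _ _ _ (PL.man_th _ _)
  typ := typ_th _
  hl := hl_th _
  hr := hr_th _
  pg := Pg60.pg _ _
  lam := h1
  uni := h2
  l11 := h3
  noe := Noe83.noe_th Eul93.eulStmt Irr93.irrStmt _ _ _
  kun := PD.th_kun _ _ _ fun _ _ h0 _ su cu hu => Q74.coh_one_XP h0 su cu hu

end Crest.Agent.X262.Coh
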