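import Crest.Agent.X262.Form88.Snc
import Crest.Agent.X277.GF.Prj

/-!
# Row 262, COH (helper45): products of first Chern classes are intersection numbers

* `plOf`, `lpb_rs`, `IsDv.eq_dv`, `IsDv.exists_res` : restriction to a smooth divisor;
* `Th.NumIn`, `Th.NumIn.c1_num` : the field `c1_num` of `MAN` from Poincaré-Lelong.
-/

set_option autoImplicit false

open WithZero

noncomputable section

namespace Crest.Agent.X262.Coh

open Crest.Agent.X277 Crest.Agent.X277.Lef Crest.Agent.X277.AN.G1 Crest.Agent.X277.BD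
  Crest.Agent.X277.BD.Br
open Crest.Agent.X277.Link (IsPD)
open Crest.Agent.X262.Form88 (Val)

variable {X Y : SV}

theorem bnum_pt (h : X.dim = 0) : bnum ([] : List (BD ℂ X.F)) = 1 := by
  obtain ⟨M⟩ := (inferInstance : Nonempty (Mdl ℂ X.F))
  have h1 : ∀ (n : ℕ) (V : R274.Defs_781.Var ℂ X.F n) (S : R274.Coh_413.Pol V M.On), n = 0 →
      AN.G2.num S (AN.G2.OX V) [] = Module.finrank ℂ X.F ∧ Module.Finite ℂ X.F := by
    rintro n V S rfl
    exact ⟨GF.cc_point S 0, GF.finite_point V S⟩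
  obtain ⟨h2, h3⟩ := h1 _ M.X M.S h
  rw [bnum_eq' (M := M) (l := []) [] rfl h.symm, h2,
    ← (LinearEquiv.ofBijective (Algebra.linearMap ℂ X.F)
      IsAlgClosed.algebraMap_bijective_of_isIntegral).finrank_eq, Module.finrank_self, Nat.cast_one]

section Res

variable {u : Hom X Y} {v : Valuation Y.F ℤᵐ⁰}

/-- the place of a morphism onto a prime divisor -/
def plOf (h : Val u v) (hv : IsPD Y.P v) : Pl ℂ Y.F ℂ X.F where
  V := rz v hv.triv
  φ :=
    { toFun := fun x => u.p.π x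
      map_one' := u.p.π_one
      map_zero' := u.p.π_zero
      map_mul' := fun a b => u.p.π_mul ((h _).2 a.2) ((h _).2 b.2)
      map_add' := fun a b => u.p.π_add ((h _).2 a.2) ((h _).2 b.2) }
  ker x := (h.π_eq_iff x.2).trans (by simpa using (v_rz_lt_iff v hv.triv (x := x.1) (y := 1)).symm)
  ov c := ⟨c, u.p.π_alg c⟩

theorem plOf_r (h : Val u v) (hv : IsPD Y.P v) (f : Y.F) : (plOf h hv).r f = u.p.π f := by
  by_cases hf : f ∈ (plOf h hv).V.1
  · exact Pl.r_eq _ hf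
  · rw [Pl.r, dif_neg hf, u.p.π_off fun h1 => hf ((h f).1 h1)]

theorem lpb_rs (h : Val u v) (hv : IsPD Y.P v) (a : BD ℂ Y.F) :
    LPbU u a ((plOf h hv).rs a) (a.gen (plOf h hv).V) := fun x g hg W hW => by
  rw [← plOf_r h hv]
  refine (Pl.val_res (Pl.val_sub_gen (a.v_gen _)) ((hg.sub (at_pr _ (a.gen_ne _))) _ ?_)).symm
  exact fun f hf => Pl.mem_cm.2 ⟨(h f).1 (u.mem_O hf), by
    rw [plOf_r]; exact hW _ (u.π_mem hf)⟩

theorem LPb.mem_On {a : BD ℂ Y.F} {a' : BD ℂ X.F} (h : LPb u a a') (ha : a ∈ Y.On) : a' ∈ X.On :=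
  fun x => h.elim fun _ h => (ha (u.map x)).elim fun g hg => ⟨_, h x g hg⟩

theorem IsDv.eq_dv {a : BD ℂ Y.F} (h : IsDv u a) (hv : IsPD Y.P v) (hu : Val u v) :
    a = Geo.dv Y.P (rz v hv.triv) := by
  refine ext_at (P := Y.P) fun y => ?_
  by_cases hy : y ∈ Set.range u.map
  · obtain ⟨x, rfl⟩ := hy
    obtain ⟨t, h1, h2, h3⟩ := h.eqn x
    have h0 : t ≠ 0 := fun h0 => h2.ne (by rw [h0, inv_zero])
    obtain ⟨s, hs⟩ := hv.exists_eqn (hu.on x)
    refine ⟨_, h2, Geo.at_dv (Geo.prm_of_isPD hv) ?_⟩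
    rw [Geo.nv_rz hv.triv hv.nrm]
    have h4 : ∀ f ∈ (lp (u.map x)).O, v f < 1 ↔ f / t ∈ (lp (u.map x)).O := fun f hf =>
      (hu.π_eq_iff (hu.on x f hf)).symm.trans (h3 f hf)
    refine ⟨h1, hs.val ▸ le_antisymm ?_ ?_, hs.loc, fun f hf => (h4 f hf).1⟩
    · exact (Link.v_div_le hs.ne).1 (hu.on x _ (hs.div t h1 ((h4 t h1).2 (by
        rw [div_self h0]; exact one_mem _))))
    · exact (Link.v_div_le h0).1 (hu.on x _ ((h4 s hs.mem).1 hs.lt))
  · exact ⟨1, h.off y hy, Geo.at_dv_off fun h1 => hy (hu.mem_range.2 fun f hf => h1 f hf)⟩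

/-- **restriction to a smooth divisor** -/
theorem IsDv.exists_res {a : BD ℂ Y.F} (h : IsDv u a) : ∃ r : BD ℂ Y.F → BD ℂ X.F,
    (∀ b, LPb u b (r b)) ∧ ∀ l, (∀ b ∈ l, b ∈ Y.On) → bnum (a :: l) = bnum (l.map r) := by
  obtain ⟨v, hv, hu⟩ := h.val
  refine ⟨(plOf hu hv).rs, fun b => ⟨_, lpb_rs hu hv b⟩, fun l hl => ?_⟩
  rw [h.eq_dv hv hu, Geo.bnum_dv (Geo.prm_of_isPD hv) hl]
  exact Geo.dg_eq_pl (p := plOf hu hv) (Geo.prm_of_isPD hv).dvs
    (fun c => (plOf_r hu hv _).trans (u.p.π_alg c))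
    (fun g => (h.emb.birIm.surj g).elim fun f hf => ⟨⟨f, (hu f).1 hf.1⟩, hf.2⟩) l

end Res

namespace Th

/-- the input of `c1_num` -/
structure NumIn (C : Th) : Prop where
  c1_add : ∀ X, ∀ a ∈ X.On, ∀ b ∈ X.On, C.c1 X (a + b) = C.c1 X a + C.c1 X b
  c1_pb : ∀ {X Y : SV} (μ : Hom X Y), ∀ a ∈ Y.On, ∀ a', LPb μ a a' →
    C.pb μ (C.c1 Y a) = C.c1 X a'
  pl : ∀ {D X : SV} (j : Hom D X) (a : BD ℂ X.F), IsDv j a →
    ∀ y, C.itg D (C.pb j y) = C.itg X (C.c1 X a * y)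
  bim : ∀ {X Y : SV} (μ : Hom X Y), Bim μ → ∀ y, C.itg X (C.pb μ y) = C.itg Y y
  pt : ∀ X : SV, X.dim = 0 → C.itg X 1 = 1
  pos : ∀ X : SV, X.dim ≠ 0 → C.itg X 1 = 0

variable {C : Th}

theorem NumIn.pb_prod (h : C.NumIn) (μ : Hom X Y) {r : BD ℂ Y.F → BD ℂ X.F}
    {l : List (BD ℂ Y.F)} (hl : ∀ a ∈ l, a ∈ Y.On) (hr : ∀ a ∈ l, LPb μ a (r a)) :
    C.pb μ (l.map (C.c1 Y)).prod = ((l.map r).map (C.c1 X)).prod := by
  rw [map_list_prod, List.map_map, List.map_map]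
  exact congrArg _ (List.map_congr_left fun a ha => h.c1_pb μ a (hl a ha) _ (hr a ha))

/-- **products of first Chern classes are intersection numbers** -/
theorem NumIn.c1_num (h : C.NumIn) (X : SV) (l : List (BD ℂ X.F)) (hl : ∀ a ∈ l, a ∈ X.On) :
    C.itg X (l.map (C.c1 X)).prod = (bnum l : ℤ) := by
  induction hn : l.length generalizing X with
  | zero =>
    obtain rfl := List.length_eq_zero_iff.1 hn
    by_cases h0 : X.dim = 0
    · rw [bnum_pt h0, Int.cast_one]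
      exact h.pt X h0
    · rw [bnum_of_ne (Ne.symm h0), Int.cast_zero]
      exact h.pos X h0
  | succ n ih =>
    obtain ⟨a, l, rfl⟩ := List.exists_cons_of_length_eq_add_one hn
    obtain ⟨M, π, h1, ι, _, G, v, e, h2, -, h3⟩ := Form88.exists_snc X {a}
    obtain ⟨-, m, h4, -⟩ := h3 a (Finset.mem_singleton_self a)
    have h5 : ∀ b, LPb π b (id b) := fun b => ⟨1, fun x g hg => by
      simpa [h1, pb_id] using hg.pb h1⟩
    have h6 : ∀ b ∈ l, b ∈ (sv M).On := fun b hb =>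
      (h5 b).mem_On (hl b (List.mem_cons_of_mem _ hb))
    let φ : (sv M).On →+ C.H (sv M) :=
      AddMonoidHom.mk' (fun b => C.c1 (sv M) b) fun a b => h.c1_add _ _ a.2 _ b.2
    have h7 : C.c1 (sv M) a = ∑ i, m i • C.c1 (sv M) (e i) := by
      have h8 := map_sum φ (fun i => m i • (⟨e i, (h2 i).on⟩ : (sv M).On)) Finset.univ
      simp only [map_zsmul] at h8
      refine Eq.trans (congrArg (C.c1 (sv M)) ?_) h8
      rw [h4, AddSubgroup.val_finsetSum]
      rfl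
    rw [← h.bim π (Form88.bim_id h1), h.pb_prod π hl fun b _ => h5 b, List.map_id, List.map_cons,
      List.prod_cons, h7, Finset.sum_mul, map_sum]
    conv_rhs => rw [h4, bnum_sum, Int.cast_sum]
    refine Finset.sum_congr rfl fun i _ => ?_
    obtain ⟨r, h8, h9⟩ := (h2 i).exists_res
    rw [smul_mul_assoc, map_zsmul, ← h.pl (v i) _ (h2 i), h.pb_prod (v i) h6 fun b _ => h8 b,
      ih (G i) (l.map r) (fun b hb => ?_) (by simpa using hn), bnum_zsmul, h9 l h6, zsmul_eq_mul,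
      Int.cast_mul]
    obtain ⟨b, hb', rfl⟩ := List.mem_map.1 hb
    exact (h8 b).mem_On (h6 b hb')

end Th

end Crest.Agent.X262.Coh
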